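import Vale.Agent.P200f.Generic

/-!
The Eisenbud-Green-Harris and lex-plus-powers statements for regular sequences of forms of prime
degree `p` with good reduction in residue characteristic `p`: in particular all of them in
characteristic `p`, and those with algebraically independent coefficients in characteristic zero.
-/

noncomputable section

namespace Vale.Agent.Results.P200.PrimeDegreeLPP

open MvPolynomial IsLocalRing Vale.Agent.P200b Vale.Agent.P200d

universe u

/-- The lex-plus-powers ideal. -/
def lexIdeal {K : Type u} [Field K] {n : ℕ} (p c : ℕ) (I : Ideal (MvPolynomial (Fin n) K)) :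
    Ideal (MvPolynomial (Fin n) K) :=
  Ideal.span ((fun a => monomial a (1 : K)) '' {a | Lex.inJ p c I a})

/-- `J` is an ideal with the Hilbert function of `I` and at least as large graded Betti numbers. -/
def HasLPP {K : Type u} [Field K] {n : ℕ} (p c : ℕ) (I : Ideal (MvPolynomial (Fin n) K)) : Prop :=
  (lexIdeal p c I).restrictScalars K = Lex.lexPP p c I ∧
    (∀ d, Module.finrank K
        ↥((lexIdeal p c I).restrictScalars K ⊓ homogeneousSubmodule (Fin n) K d) =
      Module.finrank K ↥(I.restrictScalars K ⊓ homogeneousSubmodule (Fin n) K d)) ∧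
    ∀ i j : ℕ, boundaries I i j ≤ cycles I i j ∧
      boundaries (lexIdeal p c I) i j ≤ cycles (lexIdeal p c I) i j ∧
      betti I i j ≤ betti (lexIdeal p c I) i j

/-- For a prime `p` and `c ≤ n` forms of degree `p`, both conjectures hold for every homogeneous
ideal containing them: when the field has characteristic `p` and the forms are a regular sequence;
over any field, when the forms are integral over a valuation subring of residue characteristic `p`
and their reductions are a regular sequence; and over any field, when their coefficients are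
algebraically independent. -/
theorem result {K : Type u} [Field K] {p : ℕ} [Fact p.Prime] {n c : ℕ} (hc : c ≤ n) :
    (CharP K p → ∀ f : Fin c → MvPolynomial (Fin n) K, (∀ i, (f i).IsHomogeneous p) →
      (∀ i g, g * f i ∈ Ideal.span (f '' Set.Iio i) → g ∈ Ideal.span (f '' Set.Iio i)) →
      ∀ I : Ideal (MvPolynomial (Fin n) K), (∀ q ∈ I, ∀ d, homogeneousComponent d q ∈ I) →
        (∀ i, f i ∈ I) → HasLPP p c I) ∧
    (∀ (V : ValuationSubring K), residue V (p : V) = 0 →
      ∀ F : Fin c → MvPolynomial (Fin n) V, (∀ i, (F i).IsHomogeneous p) →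
      (∀ i g, g * map (residue V) (F i) ∈
          Ideal.span ((fun t => map (residue V) (F t)) '' Set.Iio i) →
        g ∈ Ideal.span ((fun t => map (residue V) (F t)) '' Set.Iio i)) →
      ∀ I : Ideal (MvPolynomial (Fin n) K), (∀ q ∈ I, ∀ d, homogeneousComponent d q ∈ I) →
        (∀ i, map V.subtype (F i) ∈ I) → HasLPP p c I) ∧
    (∀ f : Fin c → MvPolynomial (Fin n) K, (∀ i, (f i).IsHomogeneous p) →
      AlgebraicIndependent ℤ
        (fun x : {x : Fin c × (Fin n →₀ ℕ) // x.2.degree = p} => coeff x.1.2 (f x.1.1)) →
      ∀ I : Ideal (MvPolynomial (Fin n) K), (∀ q ∈ I, ∀ d, homogeneousComponent d q ∈ I) →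
        (∀ i, f i ∈ I) → HasLPP p c I) := by
  refine ⟨fun hK f hf hreg I hI hfI => ?_, fun V hp F hF hreg I hI hFI => ?_,
    fun f hf hgen I hI hfI => ?_⟩
  · obtain ⟨h1, h2, h3⟩ := Vale.Agent.P200e.result hc f hf hreg I hI hfI
    exact ⟨h1, h2, fun i j => ⟨boundaries_le_cycles I i j, boundaries_le_cycles _ i j, h3 i j⟩⟩
  · obtain ⟨h1, h2, h3⟩ := Vale.Agent.P200f.lpp_of_reduction V hp hc F hF hreg I hI hFI
    exact ⟨h1, h2, fun i j => ⟨boundaries_le_cycles I i j, boundaries_le_cycles _ i j, h3 i j⟩⟩
  · obtain ⟨h1, h2, h3⟩ := Vale.Agent.P200f.lpp_of_generic hc f hf hgen I hI hfI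
    exact ⟨h1, h2, fun i j => ⟨boundaries_le_cycles I i j, boundaries_le_cycles _ i j, h3 i j⟩⟩

end Vale.Agent.Results.P200.PrimeDegreeLPP
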