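import Vale.Agent.P200c.Bridge
import Vale.Agent.P200.Literal
import Vale.Agent.P200b.Result

/-!
The lex-plus-powers statement for regular sequences of quadrics over every field.
-/

noncomputable section

namespace Vale.Agent.Results.P200.QuadricsLPP

open MvPolynomial Vale.Agent.P200b Vale.Agent.P200c
open scoped Classical

variable {K : Type*} [Field K] {n : ℕ}

/-- The lex-plus-powers ideal. -/
def lexIdeal (c : ℕ) (I : Ideal (MvPolynomial (Fin n) K)) : Ideal (MvPolynomial (Fin n) K) :=
  Ideal.span ((fun a => monomial a (1 : K)) '' {a | Vale.Agent.P200.Literal.inJ c I a})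

/-- For every homogeneous ideal containing a regular sequence of quadrics the lex-plus-powers
space is an ideal with the same Hilbert function and with at least as large graded Betti numbers. -/
theorem result {K : Type*} [Field K] {n c : ℕ} (hc : c ≤ n)
    (f : Fin c → MvPolynomial (Fin n) K) (hf : ∀ i, (f i).IsHomogeneous 2)
    (hreg : ∀ i g, g * f i ∈ Ideal.span (f '' Set.Iio i) → g ∈ Ideal.span (f '' Set.Iio i))
    (I : Ideal (MvPolynomial (Fin n) K)) (hI : ∀ p ∈ I, ∀ d, homogeneousComponent d p ∈ I)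
    (hfI : ∀ i, f i ∈ I) :
    (lexIdeal c I).restrictScalars K = Vale.Agent.P200.Literal.lexPP c I ∧
      (∀ d, Module.finrank K
          ↥((lexIdeal c I).restrictScalars K ⊓ homogeneousSubmodule (Fin n) K d) =
        Module.finrank K ↥(I.restrictScalars K ⊓ homogeneousSubmodule (Fin n) K d)) ∧
      ∀ p j : ℕ, boundaries I p j ≤ cycles I p j ∧
        boundaries (lexIdeal c I) p j ≤ cycles (lexIdeal c I) p j ∧
        betti I p j ≤ betti (lexIdeal c I) p j := by
  obtain ⟨hmul, hHF⟩ := Vale.Agent.P200.Literal.result hc f hf hreg I hI hfI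
  have hlex : Vale.Agent.P200.Literal.lexPP c I = restrictSupport K {a | Vale.Agent.P200.Literal.inJ c I a} :=
    (restrictSupport_eq_span K _).symm
  have hJup : ∀ a ∈ {a | Vale.Agent.P200.Literal.inJ c I a}, ∀ b, a ≤ b →
      b ∈ {a | Vale.Agent.P200.Literal.inJ c I a} := by
    intro a ha b hab
    have h := hmul (monomial (b - a) 1) (monomial a 1) (Submodule.subset_span ⟨a, ha, rfl⟩)
    rw [monomial_mul, mul_one, tsub_add_cancel_of_le hab, hlex, mem_restrictSupport_iff,
      support_monomial, if_neg one_ne_zero] at h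
    exact h (Finset.mem_singleton_self b)
  have heq : (lexIdeal c I).restrictScalars K = Vale.Agent.P200.Literal.lexPP c I := by
    apply le_antisymm
    · intro q hq
      rw [Submodule.restrictScalars_mem, lexIdeal, mem_ideal_span_monomial_image] at hq
      rw [hlex, mem_restrictSupport_iff]
      intro a ha
      obtain ⟨s, hs, hsa⟩ := hq a ha
      exact hJup s hs a hsa
    · refine Submodule.span_le.2 ?_
      rintro _ ⟨a, ha, rfl⟩
      exact Ideal.subset_span ⟨a, ha, rfl⟩
  have hHFJ : ∀ d, Module.finrank K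
      ↥((lexIdeal c I).restrictScalars K ⊓ homogeneousSubmodule (Fin n) K d) =
      Module.finrank K ↥(I.restrictScalars K ⊓ homogeneousSubmodule (Fin n) K d) := fun d => by
    rw [heq]; exact hHF d
  refine ⟨heq, hHFJ, fun p j => ?_⟩
  obtain ⟨U0, hsq, hHFU, hbetti⟩ := Vale.Agent.P200b.Result.result hc f hf hreg I hI hfI
  refine ⟨(hbetti p j).1, boundaries_le_cycles _ p j, le_trans (hbetti p j).2 ?_⟩
  set U : Set (Fin n →₀ ℕ) := {a | ∃ s ∈ U0, s ≤ a}
  have hUup : ∀ a ∈ U, ∀ b, a ≤ b → b ∈ U := fun a ⟨s, hs, hsa⟩ b hab => ⟨s, hs, hsa.trans hab⟩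
  have hspan : Ideal.span ((fun a => monomial a (1 : K)) '' U0) =
      Ideal.span ((fun a => monomial a (1 : K)) '' U) := by
    refine le_antisymm (Ideal.span_mono (Set.image_mono fun a ha => ⟨a, ha, le_rfl⟩))
      (Ideal.span_le.2 ?_)
    rintro _ ⟨a, ⟨s, hs, hsa⟩, rfl⟩
    refine mem_ideal_span_monomial_image.2 fun b hb => ⟨s, hs, ?_⟩
    rw [support_monomial, if_neg one_ne_zero, Finset.mem_singleton] at hb
    exact hb ▸ hsa
  have hPU : ∀ a, sqP c a → a ∈ U := by
    rintro a ⟨i, hi, hai⟩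
    have h := hsq ⟨i, hi⟩
    rw [X_pow_eq_monomial, mem_ideal_span_monomial_image, support_monomial,
      if_neg one_ne_zero] at h
    obtain ⟨s, hs, hsa⟩ := h _ (Finset.mem_singleton_self _)
    refine ⟨s, hs, hsa.trans ?_⟩
    rw [show Fin.castLE hc ⟨i, hi⟩ = i from Fin.ext rfl]
    exact Finsupp.single_le_iff.2 hai
  have hPJ : ∀ a, sqP c a → a ∈ {a | Vale.Agent.P200.Literal.inJ c I a} := fun a ha => Or.inl ha
  rw [hspan] at hHFU ⊢
  refine betti_le_of_boundaries _ _ j (fun d => (hHFU d).trans (hHFJ d).symm) (fun q => ?_) p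
  by_cases hqj : q ≤ j
  swap
  · have h0 : boundaries (lexIdeal c I) q j = ⊥ := by
      refine eq_bot_iff.2 fun φ hφ => ?_
      rw [Submodule.mem_bot]
      funext T
      exact (mem_chains.1 (boundaries_le _ q j hφ) T).2 (fun h' => hqj h'.2)
    rw [h0, finrank_bot]
    exact Nat.zero_le _
  rw [lexIdeal, finrank_boundaries _ hJup hPJ hqj, finrank_boundaries _ hUup hPU hqj]
  refine Nat.add_le_add_right ?_ _
  set e := j - q
  have hcard : ∀ V : Set (Fin n →₀ ℕ), (∀ a, sqP c a → a ∈ V) →
      {a ∈ V | a.degree = e}.ncard =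
        (famOf c e V).card + ((Vale.Agent.P200.degSet n e).filter (sqP c)).card := by
    intro V hV
    rw [← Finset.card_union_of_disjoint, ← Set.ncard_coe_finset]
    · congr 1
      ext a
      simp only [Finset.coe_union, Set.mem_union, Finset.mem_coe, mem_famOf, Finset.mem_filter,
        Vale.Agent.P200.mem_degSet, Set.mem_ofPred_eq]
      constructor
      · rintro ⟨h1, h2⟩
        by_cases h : sqP c a
        · exact Or.inr ⟨h2, h⟩
        · exact Or.inl ⟨h2, h1, h⟩
      · rintro (⟨h1, h2, -⟩ | ⟨h1, h2⟩)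
        · exact ⟨h2, h1⟩
        · exact ⟨hV a h2, h1⟩
    · exact Finset.disjoint_left.2 fun a h1 h2 =>
        (mem_famOf.1 h1).2.2 (Finset.mem_filter.1 h2).2
  have hcardeq : (famOf c e U).card = (famOf c e {a | Vale.Agent.P200.Literal.inJ c I a}).card := by
    have h1 := hHFU e
    rw [Vale.Agent.P200b.Result.monomial_hilbert U hUup, hcard U hPU] at h1
    have h2 := hHFJ e
    rw [lexIdeal, Vale.Agent.P200b.Result.monomial_hilbert _ hJup, hcard _ hPJ] at h2
    omega
  refine bR_seg_le (κ := Vale.Agent.P200.Literal.cap c e) (Vale.Agent.P200.Literal.cap_mono c e)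
    (fun l hl => if_pos hl) q e (fun a => Vale.Agent.P200.Literal.mem_box_cap (Nat.le_succ e)) _ _
    (fun a ha => ⟨(mem_famOf.1 ha).1, (mem_famOf.1 ha).2.2⟩)
    (fun a ha => ⟨(mem_famOf.1 ha).1, (mem_famOf.1 ha).2.2⟩) ?_ hcardeq
  intro a ha b hb hbP hab
  obtain ⟨hd, haJ, haP⟩ := mem_famOf.1 ha
  refine mem_famOf.2 ⟨hb, ?_, hbP⟩
  rcases haJ with h | h
  · exact absurd h haP
  refine Or.inr ?_
  rw [hb, ← hd]
  refine lt_of_le_of_lt (Set.ncard_le_ncard ?_ ?_) h
  · rintro x ⟨h1, h2, h3⟩
    exact ⟨h1, h2, hab.trans h3⟩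
  · exact (Vale.Agent.P200.degSet n a.degree).finite_toSet.subset
      fun x hx => Vale.Agent.P200.mem_degSet.2 hx.1

end Vale.Agent.Results.P200.QuadricsLPP
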